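import Vale.Agent.Lib.P322.Main

/-!
P322, Q1: the Courtade-Kumar conjecture, in full.

`X` is uniform on the cube `Fin n → Bool`, `Y` is the output of `n` independent binary symmetric
channels with crossover probability `ε` and input `X`.  For every Boolean function `f` and every
`0 ≤ ε ≤ 1 / 2` the mutual information in bits satisfies `I(f(X); Y) ≤ 1 - h₂(ε)`.
-/

namespace Vale.Agent.Results.P322.CourtadeKumar

open Vale.Agent.P322

theorem result (n : ℕ) (f : (Fin n → Bool) → Bool) (ε : ℝ) (h0 : 0 ≤ ε) (h1 : ε ≤ 1 / 2) :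
    mutualInfo (jointLaw ε f) ≤ 1 - entropy2 ε :=
  courtadeKumar f h0 h1

end Vale.Agent.Results.P322.CourtadeKumar
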